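import Mathlib
import Crest.Agent.Snaky.Game
set_option autoImplicit false
open Crest.CombinatoricsR.PolyominoGame

/-! The rules of `W` in the form used by the checker. -/

namespace Crest.Agent.Snaky

/-- `K` is the set of cells of a copy of Snaky -/
def IsCopy (K : Finset (ℤ × ℤ)) : Prop :=
  ∃ t : ℤ × ℤ, ∃ ε₁ ε₂ : ℤ, (ε₁ = 1 ∨ ε₁ = -1) ∧ (ε₂ = 1 ∨ ε₂ = -1) ∧
    (K = snaky.image (fun p => (t.1 + ε₁ * p.1, t.2 + ε₂ * p.2)) ∨
      K = snaky.image (fun p => (t.1 + ε₁ * p.2, t.2 + ε₂ * p.1)))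

lemma IsCopy.contains {K : Finset (ℤ × ℤ)} (h : IsCopy K) : ContainsCopy (↑K : Set (ℤ × ℤ)) := by
  obtain ⟨t, e1, e2, h1, h2, h3⟩ := h
  refine ⟨t, e1, e2, h1, h2, ?_⟩
  rcases h3 with rfl | rfl
  · left
    intro p hp
    exact Finset.mem_coe.2 (Finset.mem_image.2 ⟨p, hp, rfl⟩)
  · right
    intro p hp
    exact Finset.mem_coe.2 (Finset.mem_image.2 ⟨p, hp, rfl⟩)

theorem W_leaf (K : Finset (ℤ × ℤ)) (x : ℤ × ℤ) (hK : IsCopy K) (hx : x ∈ K) :
    W (K.erase x) {x} 1 := by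
  refine W.leaf _ _ 0 x (Finset.mem_singleton_self x) ?_
  rw [Finset.insert_erase hx]
  exact hK.contains

theorem W_node (x : ℤ × ℤ) (n : ℕ) (P C : Fin (n + 1) → Finset (ℤ × ℤ)) (d : ℕ)
    (h : ∀ i, W (P i) (C i) d) (hy : ∀ y : ℤ × ℤ, ∃ i, y ∉ C i) :
    W ((Finset.univ.biUnion P).erase x) (insert x (Finset.univ.biUnion C)) (d + 1) := by
  refine W.node _ _ d x (Finset.mem_insert_self _ _) fun y => ?_
  obtain ⟨i, hi⟩ := hy y
  refine ⟨C i, ?_, hi, ?_⟩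
  · exact (Finset.subset_biUnion_of_mem C (Finset.mem_univ i)).trans (Finset.subset_insert _ _)
  · refine (h i).mono ?_ (Finset.Subset.refl _) le_rfl
    intro c hc
    by_cases hcx : c = x
    · rw [hcx]; exact Finset.mem_insert_self _ _
    · exact Finset.mem_insert_of_mem (Finset.mem_erase.2 ⟨hcx,
        Finset.subset_biUnion_of_mem P (Finset.mem_univ i) hc⟩)

/-- the same with a list of children -/
theorem W_node' (x : ℤ × ℤ) (L : List (Finset (ℤ × ℤ) × Finset (ℤ × ℤ))) (P C : Finset (ℤ × ℤ)) (d : ℕ)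
    (hx : x ∈ C) (h : ∀ q ∈ L, W q.1 q.2 d) (hP : ∀ q ∈ L, q.1 ⊆ insert x P) (hC : ∀ q ∈ L, q.2 ⊆ C)
    (hy : ∀ y : ℤ × ℤ, ∃ q ∈ L, y ∉ q.2) : W P C (d + 1) :=
  W.node_list hx L (fun q hq => ⟨h q hq, hP q hq, hC q hq⟩) hy

theorem W_mono {P C P' C' : Finset (ℤ × ℤ)} {d d' : ℕ} (h : W P C d) (hP : P ⊆ P') (hC : C ⊆ C')
    (hd : d ≤ d') : W P' C' d' := h.mono hP hC hd

theorem W_image {P C : Finset (ℤ × ℤ)} {d : ℕ} (h : W P C d) (φ : (ℤ × ℤ) ≃ (ℤ × ℤ)) (hφ : Symm φ)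
    (f : ℤ × ℤ → ℤ × ℤ) (hf : ∀ p, f p = φ p) : W (P.image f) (C.image f) d := by
  have hf' : f = φ := funext hf
  subst hf'
  have h2 := h.map hφ
  rw [Finset.map_eq_image, Finset.map_eq_image] at h2
  exact h2

theorem W_trans {P C : Finset (ℤ × ℤ)} {d : ℕ} (h : W P C d) (t : ℤ × ℤ) :
    W (P.image (· + t)) (C.image (· + t)) d :=
  W_image h (trE t) (symm_trE t) _ fun _ => rfl

theorem W_swap {P C : Finset (ℤ × ℤ)} {d : ℕ} (h : W P C d) :
    W (P.image Prod.swap) (C.image Prod.swap) d :=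
  W_image h swE symm_swE _ fun _ => rfl

theorem W_neg {P C : Finset (ℤ × ℤ)} {d : ℕ} (h : W P C d) :
    W (P.image fun p => (-p.1, p.2)) (C.image fun p => (-p.1, p.2)) d :=
  W_image h refE symm_refE _ fun _ => rfl

theorem W_neg' {P C : Finset (ℤ × ℤ)} {d : ℕ} (h : W P C d) :
    W (P.image fun p => (p.1, -p.2)) (C.image fun p => (p.1, -p.2)) d :=
  W_image h ((swE.trans refE).trans swE) ((symm_swE.trans symm_refE).trans symm_swE) _ fun _ => rfl

/-- any of the eight symmetries followed by a translation -/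
theorem W_act {P C : Finset (ℤ × ℤ)} {d : ℕ} (h : W P C d) (sw n1 n2 : Bool) (t : ℤ × ℤ) :
    W (P.image fun p => ((bif n1 then -(bif sw then p.2 else p.1) else (bif sw then p.2 else p.1)) + t.1,
       (bif n2 then -(bif sw then p.1 else p.2) else (bif sw then p.1 else p.2)) + t.2))
      (C.image fun p => ((bif n1 then -(bif sw then p.2 else p.1) else (bif sw then p.2 else p.1)) + t.1,
       (bif n2 then -(bif sw then p.1 else p.2) else (bif sw then p.1 else p.2)) + t.2)) d :=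
  W_image h (actE sw n1 n2 t) (symm_actE sw n1 n2 t) _ fun p => (actE_apply sw n1 n2 t p).symm

end Crest.Agent.Snaky
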